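import Vale.Agent.P287D.St
import Vale.Agent.P287D.Ad.Df

/-!
# P287D, block KU: vanishing, extension and connectedness for b-divisors (statements)
-/

open Set

noncomputable section

namespace Vale.Agent.P287D

section defs

variable {K : Type} [Field K] [Algebra ℂ K]

/-- `f` is a section of the round up of the discrepancy b-divisor of `Γ` at `P` -/
def Aj (n : ℕ) (Γ : BD K) (P : Pl K) (f : K) : Prop := f = 0 ∨ -1 < dsc n Γ P + P.ord f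

/-- the centre of `R` on `V Λ` lies in the non-klt locus of `Γ` -/
def Nk (n : ℕ) (Λ Γ : BD K) (R : Pl K) : Prop := ∃ P, dsc n Γ P ≤ -1 ∧ CLe Λ R P

/-- the sections of the round up of the positive part of the discrepancy divisor are constant -/
def Rk1 (n : ℕ) (Γ : BD K) : Prop :=
  ∀ f : K, f ≠ 0 → (∀ P : Pl K, 0 ≤ P.ord f ∨ Aj n Γ P f) → dv f = 0

end defs

/-- **UKV**: `H¹(⌈dsc Γ⌉) = 0` if `-Γ` is nef and big, for the cover by the complements of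
effective Cartier b-divisors -/
def UKV : Prop := ForK fun n K _ _ => ∀ (Γ : BD K) (ι : Type) [Finite ι] (G : ι → BD K)
  (h : ι → K), Nef (-Γ) → Big (-Γ) → (∀ i, G i ∈ Car K ∧ 0 ≤ G i) → (∀ P, ∃ i, G i P = 0) →
  (∀ i j P, G i P = 0 → G j P = 0 → Aj n Γ P (h i - h j)) →
  ∃ f, ∀ i P, G i P = 0 → Aj n Γ P (f - h i)

/-- **UKG**: the cover by the complement and a neighbourhood of the support of `G` -/
def UKG : Prop := ForK fun n K _ _ => ∀ (Γ G : BD K) (h : K), Nef (-Γ) → Big (-Γ) → G ∈ Car K →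
  0 ≤ G → (∀ P, G P = 0 → res P G ≠ 0 → Aj n Γ P h) →
  ∃ f, ∀ P, (0 < G P → Aj n Γ P (f - h)) ∧ (G P = 0 → Aj n Γ P f)

/-- **UEXT**: extension of adjoint sections from a place of discrepancy `-1` -/
def UEXT : Prop := ForP fun n K _ _ P => ∀ (Γ : BD K) (u : P.κ), Nef (-Γ) → Big (-Γ) →
  dsc (n + 1) Γ P = -1 → (∀ Q, Aj n (adj n P Γ) Q u) →
  ∃ f ∈ P.ring, P.rd f = u ∧ ∀ R, R ≠ P → Aj (n + 1) Γ R f

/-- **EXTU**: the same, twisted by an integral Cartier b-divisor -/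
def EXTU : Prop := ForP fun n K _ _ P => ∀ (Γ L : BD K) (k : ℤ) (u : P.κ), Γ ∈ Car K →
  dsc (n + 1) Γ P = -1 → L ∈ CarZ K → L P = k → Nef (L - Γ) → Big (L - Γ) →
  Sec (res P L + fun Q => (⌈dsc n (adj n P Γ) Q⌉ : ℝ)) u →
  ∃ f : K, (f = 0 ∨ (0 ≤ (P.ord f : ℝ) + L P ∧
    ∀ R, R ≠ P → 0 ≤ (R.ord f : ℝ) + L R + ⌈dsc (n + 1) Γ R⌉)) ∧ P.rd (f * P.t ^ k) = u

/-- **UCON0**: the connectedness lemma, on any model `V Λ'` -/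
def UCON0 : Prop := ForK fun n K _ _ => ∀ (Λ' Γ : BD K) (A : Set (Pl K)), Λ' ∈ Car K →
  Nef (-Γ) → Big (-Γ) → Rk1 n Γ → (∃ P ∈ A, dsc n Γ P ≤ -1) → (∃ Q ∉ A, dsc n Γ Q ≤ -1) →
  ∃ P ∈ A, ∃ Q ∉ A, dsc n Γ P ≤ -1 ∧ dsc n Γ Q ≤ -1 ∧ Meet Λ' P Q

/-- **UCON**: the boundary is effective on some model `V Λ` -/
def UCON : Prop := ForS fun n K _ _ => ∀ (Λ Λ' Γ : BD K) (A : Set (Pl K)), Smp Λ → Big Λ →
  Bdy n Λ Γ → Λ' ∈ Car K → Nef (-Γ) → Big (-Γ) → (∃ P ∈ A, dsc (n + 1) Γ P ≤ -1) →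
  (∃ Q ∉ A, dsc (n + 1) Γ Q ≤ -1) →
  ∃ P ∈ A, ∃ Q ∉ A, dsc (n + 1) Γ P ≤ -1 ∧ dsc (n + 1) Γ Q ≤ -1 ∧ Meet Λ' P Q

/-- **URC**: connectedness in the fibre of `V Λ' → V Λ₀` over a closed point (the centre of `R₀`);
`V Λ → V Λ₀` is of Fano type (`Γ₀`) -/
def URC : Prop := ForS fun n K _ _ => ∀ (Λ Λ₀ Λ' Γ Γ₀ : BD K) (c : ℝ) (R₀ : Pl K)
  (A : Set (Pl K)), Smp Λ → Big Λ → Smp Λ₀ → Smp Λ' → Dsc Λ Λ₀ → Dsc Λ' Λ₀ → Bdy n Λ Γ →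
  Bdy n Λ Γ₀ → Klt (n + 1) Γ₀ → Nef (c • Λ₀ - Γ) → Big (c • Λ₀ - Γ) → Nef (c • Λ₀ - Γ₀) →
  Big (c • Λ₀ - Γ₀) → (∀ R, CLe Λ₀ R R₀ → CLe Λ₀ R₀ R) →
  (∃ a ∈ A, CLe Λ₀ a R₀ ∧ Nk (n + 1) Λ' Γ a) → (∃ b ∉ A, CLe Λ₀ b R₀ ∧ Nk (n + 1) Λ' Γ b) →
  ∃ a ∈ A, ∃ b ∉ A, CLe Λ₀ a R₀ ∧ Nk (n + 1) Λ' Γ a ∧ CLe Λ₀ b R₀ ∧ Nk (n + 1) Λ' Γ b ∧
    Meet Λ' a b

end Vale.Agent.P287D
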