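import Vale.Agent.P287D.Ku.Uk
import Vale.Agent.P287D.Ad.Main
import Vale.Agent.P287D.I.Kl
import Vale.Agent.P287D.Ba.Hy
import Vale.Agent.P287D.Pr.Neg

/-!
# P287D, block KU: extension of adjoint sections
-/

set_option linter.all false

open Set Filter Topology
open Vale.Agent.P297 (Place)
open Vale.Agent.P297Z.Pl
open Vale.Agent.P277Z Vale.Agent.P277Z.FI

noncomputable section

namespace Vale.Agent.P287D.Ku

open Ba hiding Div Mod

variable {n : ℕ} {K : Type} [Field K] [Algebra ℂ K]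

theorem hrt : HRT := fun _ _ _ _ hK _ _ a b c d => Pr.hart res' hK a b c d

theorem ucon : UCON := ucon_of hrt

theorem dsc_pr {M : Mdl n 0 K} (hM : M.Proj) (D : Div K) {Q : Pl K} (h : M.Pr Q.toPlace) :
    dsc n (bar M D) Q = (KM M - D) Q.toPlace := by
  rw [dsc, Pi.sub_apply, KM_pr hM h, bar_pr hM h, Finsupp.sub_apply]

/-- extension on a log smooth model -/
theorem ext_mdl {M : Mdl (n + 1) 0 K} (hM : M.Proj) {U : Set (Place K)} {D : Div K}
    (u1 : U.Finite) (u2 : M.Snc U) (d1 : M.Dv D) (d2 : (D.support : Set (Place K)) ⊆ U)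
    (d3 : M.Nef (-D)) (h2 : Big (-bar M D)) {P : Pl K} (hP : P.toPlace ∈ U)
    (e : dsc (n + 1) (bar M D) P = -1) {u : P.κ} (hu : ∀ Q, Aj n (adj n P (bar M D)) Q u) :
    ∃ f ∈ P.ring, P.rd f = u ∧
      ∀ R : Pl K, M.Pr R.toPlace → R ≠ P → Aj (n + 1) (bar M D) R f := by
  have p1 : M.Snc {P.toPlace} := snc_mono u2 (singleton_subset_iff.2 hP)
  have p2 : M.Pr P.toPlace := u2.1 _ hP
  obtain ⟨S, s, hS, hs, hR⟩ := Bm.sub hM P p1
  rw [dsc_pr hM D p2] at e
  have b0 : (D - KM M - Finsupp.single P.toPlace (1 : ℝ)) P.toPlace = 0 := by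
    rw [Finsupp.sub_apply] at e
    rw [Finsupp.sub_apply, Finsupp.sub_apply, Finsupp.single_eq_same]
    linarith
  have l0 : (Kv.ce (KM M - D) + Finsupp.single P.toPlace (1 : ℝ)) P.toPlace = 0 := by
    rw [Finsupp.add_apply, Kv.ce_apply, e, Finsupp.single_eq_same, Int.ceil_neg, Int.floor_one]
    simp
  have li := IsInt.add (Kv.ce_int (KM M - D)) (IsInt.single P.toPlace)
  rw [show D = KM M + Finsupp.single P.toPlace 1 + (D - KM M - Finsupp.single P.toPlace 1) by abel,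
    adj_bar hM p1 s hS hs b0] at hu
  rw [← map_neg, Nb.big_bar hM (F5.dv_neg d1)] at h2
  obtain ⟨A, -, a1, a2⟩ := h2
  obtain ⟨f, f1, f2⟩ := I.h1z_onto (pc hM) (pc hS) hR p1 li l0 (w := u) (fun c hc => by
      rw [add_sub_cancel_right] at hc ⊢
      simpa only [Kv.lc_iff] using Kv.kv2 (n + 1) 0 K M hM (KM M) (KM M - D) U c
        ⟨KM_isCan hM, u1, u2⟩ (fun Q hQ => by
          obtain ⟨k, hk⟩ := KM_int hM Q
          exact ⟨k, by rw [Finsupp.sub_apply, hk,
            Finsupp.notMem_support_iff.1 fun e => hQ (d2 e), sub_zero]⟩)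
        (by rw [sub_sub_cancel_left]; exact ⟨d3, A, a1, a2⟩) (by simpa only [Kv.lc_iff] using hc))
    (or_iff_not_imp_left.2 fun u0 Q hQ => by
      have k := (hu (Bm.toPl hS hQ)).resolve_left u0
      rw [dsc_pr hS _ hQ, sub_add_cancel_left, Finsupp.neg_apply] at k
      have k1 := (hR.sec _ ((Finsupp.add_apply _ _ _).trans
        ((congrArg₂ (· + ·) l0 b0).trans (add_zero _))) 1 (one_mem_H0 fun R => by
          have := Int.le_ceil ((KM M - D) R)
          simp only [Finsupp.add_apply, Finsupp.sub_apply, Kv.ce_apply, Finsupp.zero_apply] at *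
          linarith)).resolve_left (by rw [res_one]; exact one_ne_zero) Q hQ
      rw [rs_add hR l0 b0, res_one, ord_one, Finsupp.add_apply] at k1
      obtain ⟨z, hz⟩ := rs_int hR l0 li Q
      rw [hz] at k1 ⊢
      have k2 : ((-1 : ℤ) : ℝ) < ((Q.ord u + z : ℤ) : ℝ) := by
        change -1 < -s.rs _ Q + (Q.ord u : ℝ) at k
        push_cast at k1 ⊢
        linarith
      exact_mod_cast Int.lt_iff_add_one_le.1 (Int.cast_lt.1 k2))
  refine ⟨f, mem_ring_of_H0 f1 p2 l0, hs ▸ f2, fun R r1 r2 => aj_iff.2 (f1.imp_right fun k => ?_)⟩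
  have := k _ r1
  rwa [Finsupp.add_apply, Finsupp.single_eq_of_ne (pl_inj.ne r2), add_zero, Kv.ce_apply,
    ← dsc_pr hM D r1] at this

theorem uext : UEXT := by
  intro n K _ _ hK P Γ u h1 h2 e hu
  obtain ⟨M, U, D, -, hM, u1, u2, -, u3, d1, rfl, d2, d3, -⟩ :=
    comN hK h1 (β := Empty.elim) (fun i => i.elim) (finite_singleton P)
  obtain ⟨f, f1, f2, f3⟩ := ext_mdl hM u1 u2 d1 d2 d3 h2 (u3 P rfl) e hu
  refine ⟨f, f1, f2, fun R hR => ?_⟩
  obtain ⟨M', m, U', a, b, c, -, d, -, g⟩ := Nb.comS hM (finite_singleton (-bar M D))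
    (forall_eq.2 h1.car) (toFinite {P, R}) finite_empty
  obtain ⟨D', g1, g2, g3, -, g4⟩ := g _ rfl
  have g5 : bar M D = bar M' (-D') := by rw [map_neg, ← g2, neg_neg]
  obtain ⟨g, k1, k2, k3⟩ := ext_mdl a b c (F5.dv_neg g1) (by simpa using g3)
    (by simpa using g4 h1) (g5 ▸ h2) (d P (.inl rfl)) (g5 ▸ e) (g5 ▸ hu)
  rw [← g5] at k3
  obtain ⟨x, hx⟩ := ct hM R
  refine sub_add_cancel f g ▸ (aj_ct hM u2 d2 (fun Q hQ => ?_) hx).add
    (k3 R (c.1 _ (d R (.inr rfl))) hR)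
  rcases eq_or_ne Q P with rfl | k
  · have := Bm.rd_add Q (sub_mem f1 k1) k1
    rw [sub_add_cancel, f2, k2, right_eq_add, Bm.rd_zero_iff Q (sub_mem f1 k1)] at this
    exact this.imp_right fun z => by
      have : (0 : ℝ) < Q.ord (f - g) := by exact_mod_cast z
      rw [e]
      linarith
  · exact (f3 Q ⟨x, hQ⟩ k).sub (k3 Q (pr_up hM a m ⟨x, hQ⟩) k)

theorem extu : EXTU := by
  intro n K _ _ hK P Γ L k u hΓ e hL hk h1 h2 hu
  have c : (k : ℝ) • dv P.t - L ∈ Car K :=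
    sub_mem (Submodule.smul_mem _ _ (dv_mem_Car _)) (CarZ.car hL)
  have p : -(Γ + ((k : ℝ) • dv P.t - L)) - (L - Γ) ∈ Prn K := by
    rw [show -(Γ + ((k : ℝ) • dv P.t - L)) - (L - Γ) = -(k : ℝ) • dv P.t by module]
    exact Submodule.smul_mem _ _ (dv_mem_Prn _)
  have d : ∀ R, dsc (n + 1) (Γ + ((k : ℝ) • dv P.t - L)) R =
      dsc (n + 1) Γ R + (L R - k * R.ord P.t) := fun R => by
    simp only [dsc, Pi.sub_apply, Pi.add_apply, Pi.smul_apply, smul_eq_mul, dv]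
    ring
  obtain ⟨f, f1, f2, f3⟩ := uext n K hK P _ u (h1.congr p) (h2.congr p)
    (by rw [d, e, hk, P.ord_t]; simp) fun Q => aj_iff.2 (hu.imp_right fun a => by
      obtain ⟨z, hz⟩ := CarZ.int (res_carZ hK P hL) Q
      have b := a Q
      rw [(a4 n K hK P Γ hΓ _ c).1, res_sub hK P (Submodule.smul_mem _ _ (dv_mem_Car _))
        (CarZ.car hL), res_smul hK P _ (dv_mem_Car _), res_dv_t hK, smul_zero, zero_sub,
        show dsc n (adj n P Γ + -res P L) Q = dsc n (adj n P Γ) Q + z by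
          simp only [dsc, Pi.sub_apply, Pi.add_apply, Pi.neg_apply, hz]; ring, Int.ceil_add_intCast]
      simp only [Pi.add_apply, Pi.zero_apply, dv, hz] at b
      push_cast
      linarith)
  have t0 := zpow_ne_zero (-k) P.t_ne
  refine ⟨f * P.t ^ (-k), or_iff_not_imp_left.2 fun h0 => ?_, by
    rw [mul_assoc, ← zpow_add₀ P.t_ne, neg_add_cancel, zpow_zero, mul_one, f2]⟩
  have f0 := left_ne_zero_of_mul h0
  refine ⟨?_, fun R hR => ?_⟩
  · rw [P.ord_mul_t f0, hk]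
    have := Int.cast_le (R := ℝ).2 (ord_nonneg_of_mem P.toPlace f1)
    push_cast at this ⊢
    linarith
  · obtain ⟨z, hz⟩ := CarZ.int hL R
    have a := (aj_iff.1 (f3 R hR)).resolve_left f0
    rw [d, hz, ← Int.cast_mul, ← Int.cast_sub, Int.ceil_add_intCast] at a
    rw [ord_mul _ f0 t0, ord_zpow, hz]
    push_cast at a ⊢
    linarith

/-- an effective divisor which meets the centre of `P` restricts to a non-zero divisor -/
theorem res_ne {M : Mdl n 0 K} (hM : M.Proj) {x : M.F} {P : Pl K} (hx : M.Ct x P.toPlace)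
    {E : Div K} (hE : 0 ≤ E) (h0 : bar M E P = 0) {R : Place K} (hR : M.On x R) (h : 0 < E R) :
    res P (bar M E) ≠ 0 := by
  obtain ⟨n, rfl⟩ := ff_succ (Bm.ff hM) P
  obtain ⟨M', ⟨m⟩, a, b⟩ := Bm.plm_snc hM (finite_singleton P)
  rw [image_singleton] at b
  obtain ⟨y, rfl, hy⟩ := I.vlift m hM a (cpt M) (A := P.ring) hx
  obtain ⟨S, s, hS, hs, r⟩ := Bm.sub a P b
  have p := b.1 _ rfl
  obtain ⟨z, hz, e⟩ := (s.on y).1 (Bi.on_of_ct (hloc a) p hy)
  obtain rfl : y = ip s ⟨z, hz⟩ := Subtype.ext e.symm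
  have hB := hbir hM a m
  have k := hB.le _ (pt m (ip s ⟨z, hz⟩)) rfl
  obtain ⟨R', r1, r2⟩ := (hloc a).van _ _ (k.1 (eqn_mem _ R)) (eqn_ne _ R)
    ((k.2 _ (eqn_mem _ R)).self_of_nhds.trans (eqn_gn hR).van)
  have r3 : 0 < M.pull M' E R' := by
    have := Nb.bar_pos hM hE (P := Bm.toPl a ⟨_, r1⟩) (ct_pt hB r1) h r2
    rwa [← bar_pull hM a m, bar_pr a ⟨_, r1⟩] at this
  have e0 : M.pull M' E P.toPlace = 0 := by rw [← bar_pr a p, bar_pull hM a m, h0]
  have r4 : R' ≠ P.toPlace := fun c => r3.ne' (c ▸ e0)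
  have g := eqn_gn r1
  obtain ⟨Q, q1, q2⟩ := (hloc hS).van ⟨z, hz⟩ _ (res_O g.mem) (fun c => by
      rcases (s.res_zero _ (ct_of_on (on_ip s _) _ g.mem)).1 c with c | c
      · exact gn_ne g c
      · exact c.ne' ((hloc a).other _ _ _ _ g (on_ip s _) r4.symm))
    ((s.val _ _ g.mem).self_of_nhds.trans g.van)
  intro c
  have c1 := congrFun c (Bm.toPl hS ⟨_, q1⟩)
  rw [← bar_pull hM a m, res_bar0 a hS hs r e0, bar_pr hS ⟨_, q1⟩] at c1
  refine (Finset.sum_pos' (fun T hT => mul_nonneg (pull_nonneg hB hE T)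
    (Aj.rs_single_nonneg r q1 fun c => Finsupp.mem_support_iff.1 hT (c ▸ e0)))
    ⟨R', Finsupp.mem_support_iff.2 r3.ne', mul_pos r3 ?_⟩).ne'
    ((Aj.rs_sum r q1 e0).symm.trans c1)
  rw [Aj.rs_single r q1 r4]
  exact_mod_cast q2

theorem ukg : UKG := by
  classical
  intro n K _ _ hK Γ G h h1 h2 hG g0 hh
  obtain ⟨M, U, D, E, hM, u1, u2, -, -, d1, rfl, d2, d3, hE⟩ :=
    comN hK h1 (β := fun _ : Unit => G) (fun _ => hG) finite_empty
  obtain rfl : G = bar M (E ()) := (hE ()).2.1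
  have e0 := nonneg_of_bar hM (hE ()).1 g0
  let p : M.F → Prop := fun x => ∀ Q, M.On x Q → E () Q = 0
  have k : ∀ {x P}, ¬ p x → M.Ct x P.toPlace → bar M (E ()) P = 0 → Aj n (bar M D) P h :=
    fun {x P} a b c => by
      obtain ⟨R, r1, r2⟩ : ∃ R, M.On x R ∧ E () R ≠ 0 := by simpa [p] using a
      exact hh P c (res_ne hM b e0 c r1 ((e0 R).lt_of_ne' r2))
  obtain ⟨f, hf⟩ := kvm hM u1 u2 d1 d2 d3 h2 (fun x => if p x then 0 else h) fun x => by
    by_cases a : p x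
    · exact (off_near hM a).mono fun y b Q _ => Or.inl (by rw [if_pos a, if_pos b, sub_zero])
    filter_upwards [(eventually_all_finite ((KM M - D).support.finite_toSet.union
      ((hloc hM).fin h))).2 fun R _ => (hloc hM).near x R] with y hy Q hQ
    rw [if_neg a]
    split_ifs with b
    · rw [sub_zero]
      by_cases c : Q.toPlace ∈ ((KM M - D).support : Set (Place K)) ∪ {P | M.Pr P ∧ P.ord h ≠ 0}
      · exact k a (ct_of_on (hy _ c hQ)) (zero_of_off hM b (ct_of_on hQ))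
      · obtain ⟨c1, c2⟩ := not_or.1 c
        refine .of_klt ?_ (not_not.1 fun z => c2 ⟨⟨y, hQ⟩, z⟩ : Q.ord h = 0).ge
        rw [dsc_pr hM D ⟨y, hQ⟩, Finsupp.notMem_support_iff.1 c1]
        exact neg_one_lt_zero
    · exact Or.inl (sub_self _)
  refine ⟨f, fun P => ?_⟩
  obtain ⟨x, hx⟩ := ct hM P
  have a := hf x P hx
  refine ⟨fun b => ?_, fun b => ?_⟩
  · rwa [if_neg fun c => b.ne' (zero_of_off hM c hx)] at a
  · split_ifs at a with c
    · rwa [sub_zero] at a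
    · exact sub_add_cancel f h ▸ a.add (k c hx b)

end Vale.Agent.P287D.Ku
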