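import Vale.Agent.P287D.Ku.St
import Vale.Agent.P287D.Ba.Nb
import Vale.Agent.P287D.Ba.Cn
import Vale.Agent.P287D.Kv.K2
import Vale.Agent.P287D.I.Jet
import Vale.Agent.P287D.Va.Bas

/-!
# P287D, block KU: adjoint sections on log smooth models
-/

set_option linter.all false

open Set Filter Topology
open Vale.Agent.P297 (Place)
open Vale.Agent.P297Z.Pl
open Vale.Agent.P277Z Vale.Agent.P277Z.FI

noncomputable section

namespace Vale.Agent.P287D

section aj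

variable {n : ℕ} {K : Type} [Field K] [Algebra ℂ K] {Γ Γ' : BD K} {P : Pl K} {f g : K}

theorem Aj.zero (n : ℕ) (Γ : BD K) (P : Pl K) : Aj n Γ P 0 := Or.inl rfl

theorem Aj.neg (h : Aj n Γ P f) : Aj n Γ P (-f) :=
  h.imp neg_eq_zero.2 fun h => by simpa using h

theorem Aj.add (hf : Aj n Γ P f) (hg : Aj n Γ P g) : Aj n Γ P (f + g) := by
  by_cases f0 : f = 0
  · simpa [f0] using hg
  by_cases g0 : g = 0
  · simpa [g0] using hf
  refine or_iff_not_imp_left.2 fun h => ?_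
  have a := min_ord_le_add P.toPlace f0 g0 h
  have b := hf.resolve_left f0
  have c := hg.resolve_left g0
  rcases min_le_iff.1 a with k | k <;> have k' := Int.cast_le (R := ℝ).2 k <;> linarith

theorem Aj.sub (hf : Aj n Γ P f) (hg : Aj n Γ P g) : Aj n Γ P (f - g) := by
  rw [sub_eq_add_neg]; exact hf.add hg.neg

theorem Aj.swap (h : Aj n Γ P (f - g)) : Aj n Γ P (g - f) := neg_sub f g ▸ h.neg

theorem Aj.trans {u : K} (h : Aj n Γ P (f - g)) (h' : Aj n Γ P (g - u)) : Aj n Γ P (f - u) :=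
  sub_add_sub_cancel f g u ▸ h.add h'

theorem Aj.mono (h : Aj n Γ P f) (e : Γ' P ≤ Γ P) : Aj n Γ' P f :=
  h.imp_right fun h => by
    simp only [dsc, Pi.sub_apply] at h ⊢
    linarith

theorem Aj.of_klt (h : -1 < dsc n Γ P) (hf : 0 ≤ P.ord f) : Aj n Γ P f :=
  Or.inr (by have := Int.cast_le (R := ℝ).2 hf; push_cast at this; linarith)

theorem Aj.pos (h : Aj n Γ P f) (hP : dsc n Γ P ≤ -1) : f = 0 ∨ 0 < P.ord f :=
  h.imp_right fun h => by exact_mod_cast (by linarith : (0 : ℝ) < P.ord f)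

theorem Aj.nonneg (h : Aj n Γ P f) (hP : dsc n Γ P ≤ 0) : 0 ≤ P.ord f := by
  rcases h with rfl | h
  · simp
  · have : ((-1 : ℤ) : ℝ) < P.ord f := by push_cast; linarith
    have := Int.cast_lt.1 this
    omega

theorem aj_iff : Aj n Γ P f ↔ f = 0 ∨ 0 ≤ (P.ord f : ℝ) + ⌈dsc n Γ P⌉ :=
  or_congr_right (by
    rw [← Int.cast_add, Int.cast_nonneg_iff, ← sub_lt_iff_lt_add,
      show (-1 - P.ord f : ℝ) = ((-1 - P.ord f : ℤ) : ℝ) by push_cast; rfl, ← Int.lt_ceil]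
    omega)

end aj

namespace Ku

export Vale.Agent.P277Z (Div Mod)

open Ba hiding Div Mod

variable {n : ℕ} {K : Type} [Field K] [Algebra ℂ K] {M M' : Mdl n 0 K} {x : M.F} {D E B : Div K}
  {T : Set (Place K)} {P Q R : Pl K} {f g : K}

/-- log smooth pairs with coefficients at most one are log canonical -/
theorem lc_snc (hM : M.Proj) (hT : M.Snc T) (hB : F5.Bd1 T B) (R : Pl K) :
    bar M B R ≤ cn K n R - bar M (KM M) R + 1 := by
  obtain ⟨M', ⟨m⟩, h1, h2⟩ := Bm.plm1 hM R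
  have k := F5.LrH.lc box (hloc hM) (hloc h1) (hbir hM h1 m) hT hB (KM_can hM) (KM_can h1) R.toPlace
  rwa [← disc_mod hM h1 h2, ← bar_pr h1 h2, bar_pull hM h1 m] at k

/-- log smooth pairs with coefficients less than one are klt -/
theorem klt_snc (hM : M.Proj) (hT : M.Snc T) (h1 : (B.support : Set (Place K)) ⊆ T)
    (h2 : ∀ Q, B Q < 1) (R : Pl K) : bar M B R < cn K n R - bar M (KM M) R + 1 := by
  classical
  obtain ⟨c, c0, c1, c2⟩ : ∃ c : ℝ, 0 < c ∧ c < 1 ∧ ∀ Q ∈ B.support, B Q ≤ c := by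
    have a : ∀ᶠ c : ℝ in 𝓝[<] 1, 0 < c ∧ c < 1 ∧ ∀ Q ∈ B.support, B Q ≤ c :=
      (eventually_nhdsWithin_of_eventually_nhds (lt_mem_nhds one_pos)).and
        (eventually_mem_nhdsWithin.and ((eventually_all_finset _).2 fun Q _ =>
          eventually_nhdsWithin_of_eventually_nhds (le_mem_nhds (h2 Q))))
    exact a.exists
  set B₁ : Div K := Finsupp.indicator B.support fun _ _ => 1
  have e : ∀ Q, B₁ Q = if Q ∈ B.support then 1 else 0 := fun Q => by
    simp [B₁, Finsupp.indicator_apply]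
  have k := lc_snc hM hT (B := B₁) ⟨fun Q hQ => h1 (by
    by_contra a
    exact Finsupp.mem_support_iff.1 hQ (by rw [e]; exact if_neg a)), fun Q => by
      rw [e]; split_ifs <;> simp⟩ R
  have k1 := bar_mono hM (D := B) (E := c • B₁) (fun Q => by
    rw [Finsupp.smul_apply, e]
    split_ifs with a
    · simpa using c2 Q a
    · simp [Finsupp.notMem_support_iff.1 a]) R
  have k2 : 0 ≤ cn K n R - bar M (KM M) R := disc_nonneg hM R
  rw [map_smul, Pi.smul_apply, smul_eq_mul] at k1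
  nlinarith

theorem lc_iff_aj (hM : M.Proj) :
    Kv.Lc M x (KM M - D) f ↔ ∀ Q : Pl K, M.On x Q.toPlace → Aj n (bar M D) Q f := by
  have e : ∀ Q : Pl K, M.On x Q.toPlace →
      dsc n (bar M D) Q + Q.ord f = Q.ord f + (KM M - D) Q.toPlace := fun Q hQ => by
    rw [dsc, Pi.sub_apply, KM_pr hM ⟨x, hQ⟩, bar_pr hM ⟨x, hQ⟩, Finsupp.sub_apply, add_comm]
  refine ⟨fun h Q hQ => h.imp_right fun h => (e Q hQ).symm ▸ h _ hQ,
    fun h => or_iff_not_imp_left.2 fun f0 Q hQ => ?_⟩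
  have k := (h (Bm.toPl hM ⟨x, hQ⟩) hQ).resolve_left f0
  rwa [e _ hQ] at k

/-- on a log smooth model it is enough to look at the prime divisors -/
theorem aj_ct (hM : M.Proj) (hT : M.Snc T) (hD : (D.support : Set (Place K)) ⊆ T)
    (h : ∀ Q : Pl K, M.On x Q.toPlace → Aj n (bar M D) Q f) (hR : M.Ct x R.toPlace) :
    Aj n (bar M D) R f := by
  refine or_iff_not_imp_left.2 fun f0 => ?_
  have a : ∀ Q, M.On x Q → 0 ≤ (Q.ord f : ℝ) + Kv.ce (KM M - D) Q := fun Q hQ => by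
    have a := ((lc_iff_aj hM).2 h).resolve_left f0 Q hQ
    have b : -1 - Q.ord f < ⌈(KM M - D) Q⌉ := Int.lt_ceil.2 (by
      rw [Int.cast_sub, Int.cast_neg, Int.cast_one]; linarith)
    rw [Kv.ce_apply, ← Int.cast_add, Int.cast_nonneg_iff]
    omega
  have b := F5.LrH.ordAt_nonneg' hR (D := M.div f + Kv.ce (KM M - D)) fun Q hQ => by
    rw [Finsupp.add_apply, div_apply (hloc hM) f ⟨x, hQ⟩]; exact a Q hQ
  have c := klt_snc hM hT (B := Kv.ce (KM M - D) - (KM M - D)) (fun Q hQ => hD (by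
    by_contra e
    obtain ⟨k, hk⟩ := KM_int hM Q
    exact Finsupp.mem_support_iff.1 hQ (by
      simp [Kv.ce_apply, hk, Finsupp.notMem_support_iff.1 e])))
    (fun Q => sub_lt_iff_lt_add'.2 (Int.ceil_lt_add_one _)) R
  rw [← bar_ct hM hR, map_add, bar_div hM] at b
  simp only [map_sub, Pi.sub_apply, Pi.add_apply, dv, dsc] at b c ⊢
  linarith

/-- a non-klt place has its centre on a non-klt prime divisor -/
theorem nk_on (hM : M.Proj) (hT : M.Snc T) (hD : (D.support : Set (Place K)) ⊆ T)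
    (hR : M.Ct x R.toPlace) (h : dsc n (bar M D) R ≤ -1) :
    ∃ Q : Pl K, M.On x Q.toPlace ∧ dsc n (bar M D) Q ≤ -1 := by
  by_contra! k
  have := (aj_ct hM hT hD (f := 1) (fun Q hQ => Aj.of_klt (k Q hQ) (by simp)) hR).pos h
  simp at this

/-- `R` is centred at the point `x` -/
def Pt (M : Mdl n 0 K) (x : M.F) (R : Pl K) : Prop :=
  M.Ct x R.toPlace ∧ ∀ f ∈ M.O x, f ≠ 0 → M.val f x = 0 → 0 < R.ord f

theorem exists_pt (hM : M.Proj) (P : Pl K) (x : M.F) : ∃ R, Pt M x R := by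
  classical
  obtain ⟨t, ht⟩ := (hloc hM).coord x
  have t0 := fun i => (box.co1 n 0 K M (hloc hM) x t i ht).1
  obtain _ | n := n
  · exact (Bm.no_pl (Bm.ff hM) P).elim
  obtain ⟨M', m, h1, h2⟩ := prin_ex hM (s := Finset.univ.image t)
    ⟨t 0, Finset.mem_image_of_mem _ (Finset.mem_univ _), t0 0⟩
  obtain ⟨y, hy, e⟩ : (x : M.W) ∈ m.g '' M'.F := by rw [m.img]; exact x.2
  obtain rfl : x = pt m ⟨y, hy⟩ := Subtype.ext e.symm
  obtain ⟨u, u1, u0, u2⟩ := h2 ⟨y, hy⟩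
  obtain ⟨i, -, rfl⟩ := Finset.mem_image.1 u1
  have hB := hbir hM h1 m
  have k := hB.le ⟨y, hy⟩ (pt m ⟨y, hy⟩) rfl
  obtain ⟨Q, q1, q2⟩ := (hloc h1).van ⟨y, hy⟩ _ (k.1 (ht.1 i).1) u0
    ((k.2 _ (ht.1 i).1).self_of_nhds.trans (ht.1 i).2)
  refine ⟨Bm.toPl h1 ⟨_, q1⟩, ct_pt hB q1, fun f f1 f0 f2 => ?_⟩
  have := I.Jet.ord (I.jet_one hM (cpt M) ht f1 f2) f0 (ct_pt hB q1) (c := 1) fun j j0 => by
    have := ord_nonneg_of_mem Q (ct_of_on q1 _
      (u2 _ (Finset.mem_image_of_mem _ (Finset.mem_univ j))))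
    rw [ord_div Q j0 u0] at this
    omega
  exact lt_of_lt_of_le (by simp) this

theorem Pt.pos (hM : M.Proj) (h : Pt M x R) (hE : ∀ Q, M.On x Q → 0 ≤ E Q) {Q : Place K}
    (hQ : M.On x Q) (h0 : 0 < E Q) : 0 < bar M E R := by
  classical
  have a := F5.LrH.ordAt_nonneg' h.1 (D := E - Finsupp.single Q (E Q)) fun S hS => by
    rw [Finsupp.sub_apply, Finsupp.single_apply]
    split_ifs with e
    · rw [e, sub_self]
    · simpa using hE S hS
  have b : (0 : ℝ) < R.ord (M.eqn x Q) := by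
    exact_mod_cast h.2 _ (eqn_mem x Q) (eqn_ne x Q) (eqn_gn hQ).van
  rw [← bar_ct hM h.1, map_sub, Pi.sub_apply, bar_ct hM h.1 (Finsupp.single _ _), ordAt_single] at a
  nlinarith

theorem on_of_pos (hM : M.Proj) (hR : M.Ct x R.toPlace) (h : 0 < bar M E R) :
    ∃ Q, M.On x Q ∧ 0 < E Q := by
  by_contra! k
  have a := F5.LrH.ordAt_nonneg' hR (D := -E) fun Q hQ => neg_nonneg.2 (k Q hQ)
  rw [← bar_ct hM hR, map_neg, Pi.neg_apply] at a
  linarith

theorem nonneg_pr (hM : M.Proj) (h : 0 ≤ bar M E) {Q : Place K} (hQ : M.Pr Q) : 0 ≤ E Q :=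
  bar_pr hM (P := Bm.toPl hM hQ) hQ E ▸ h _

/-- an effective divisor which is positive at a place through `x` is positive at `x` -/
theorem Pt.pos' (hM : M.Proj) (h : Pt M x R) (hE : 0 ≤ bar M E) (hP : M.Ct x P.toPlace)
    (h0 : 0 < bar M E P) : 0 < bar M E R :=
  let ⟨_, a, b⟩ := on_of_pos hM hP h0
  h.pos hM (fun _ hQ => nonneg_pr hM hE ⟨x, hQ⟩) a b

theorem Pt.cle (hM : M.Proj) (h : Pt M x R) (hP : M.Ct x P.toPlace) (D : Div K) :
    CLe (bar M D) R P := fun G hG h0 => by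
  obtain ⟨Z, -, hZ⟩ := prn_bar hM hG.2
  obtain rfl : G = bar M (D + Z) := by rw [map_add, hZ, add_sub_cancel]
  exact h.pos' hM hG.1 hP h0

theorem meet_of_ct (hM : M.Proj) (hP : M.Ct x P.toPlace) (hQ : M.Ct x Q.toPlace) (D : Div K) :
    Meet (bar M D) P Q :=
  let ⟨R, h⟩ := exists_pt hM P x
  ⟨R, h.cle hM hP D, h.cle hM hQ D⟩

/-- vanishing at `x` is an open condition for the complement -/
theorem off_near (hM : M.Proj) (h : ∀ Q, M.On x Q → E Q = 0) :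
    ∀ᶠ y in 𝓝 x, ∀ Q, M.On y Q → E Q = 0 := by
  filter_upwards [(eventually_all_finite E.support.finite_toSet).2 fun R _ => (hloc hM).near x R]
    with y hy Q hQ
  by_contra e
  exact e (h Q (hy Q (Finsupp.mem_support_iff.2 e) hQ))

theorem zero_of_off (hM : M.Proj) (h : ∀ Q, M.On x Q → E Q = 0) (hR : M.Ct x R.toPlace) :
    bar M E R = 0 := (bar_ct hM hR E).trans (ordAt_eq_zero _ h)

/-- **the vanishing theorem on a log smooth model, for all places** -/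
theorem kvm (hM : M.Proj) (hf : T.Finite) (hT : M.Snc T) (hd : M.Dv D)
    (hD : (D.support : Set (Place K)) ⊆ T) (h1 : M.Nef (-D)) (h2 : Big (-bar M D))
    (h : M.F → K)
    (hh : ∀ x, ∀ᶠ y in 𝓝 x, ∀ Q : Pl K, M.On y Q.toPlace → Aj n (bar M D) Q (h x - h y)) :
    ∃ f, ∀ x (R : Pl K), M.Ct x R.toPlace → Aj n (bar M D) R (f - h x) := by
  rw [← map_neg, Nb.big_bar hM (F5.dv_neg hd)] at h2
  obtain ⟨A, -, a1, a2⟩ := h2
  obtain ⟨f, k⟩ := Kv.kv2 n 0 K M hM (KM M) (KM M - D) T h ⟨KM_isCan hM, hf, hT⟩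
    (fun Q hQ => by
      obtain ⟨k, hk⟩ := KM_int hM Q
      exact ⟨k, by rw [Finsupp.sub_apply, hk, Finsupp.notMem_support_iff.1 fun e => hQ (hD e),
        sub_zero]⟩)
    (by rw [sub_sub_cancel_left]; exact ⟨h1, A, a1, a2⟩)
    fun x => (hh x).mono fun y hy => (lc_iff_aj hM).2 hy
  exact ⟨f, fun x R hR => aj_ct hM hT hD ((lc_iff_aj hM).1 (k x)) hR⟩

/-- a log smooth model for a pair with nef anticanonical class and finitely many data -/
theorem comN (hK : FF K n) {Γ : BD K} (h : Nef (-Γ)) {ι : Type*} [Finite ι] {β : ι → BD K}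
    (hc : ∀ i, β i ∈ Car K) {S : Set (Pl K)} (hS : S.Finite) :
    ∃ (M : Mdl n 0 K) (U : Set (Place K)) (D : Div K) (E : ι → Div K), M.Proj ∧ U.Finite ∧
      M.Snc U ∧ ((KM M).support : Set (Place K)) ⊆ U ∧ (∀ P ∈ S, P.toPlace ∈ U) ∧ M.Dv D ∧
      Γ = bar M D ∧ (D.support : Set (Place K)) ⊆ U ∧ M.Nef (-D) ∧
      ∀ i, M.Dv (E i) ∧ β i = bar M (E i) ∧ ((E i).support : Set (Place K)) ⊆ U ∧
        (β i ∈ CarZ K → IsInt (E i)) ∧ (Nef (β i) → M.Nef (E i)) := by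
  obtain ⟨M₀, h₀⟩ := Bm.exists_mdl hK
  obtain ⟨M, m, U, a, b, c, d, e, f, g⟩ := Nb.comS h₀ ((finite_range β).insert (-Γ))
    (forall_mem_insert.2 ⟨h.car, forall_mem_range.2 hc⟩) hS (KM M₀).support.finite_toSet
  choose E hE using forall_mem_range.1 (forall_mem_insert.1 g).2
  obtain ⟨D, d1, d2, d3, -, d4⟩ := g _ (mem_insert _ _)
  refine ⟨M, U, -D, E, a, b, c, fun Q hQ => by_contra fun k => ?_, e, F5.dv_neg d1,
    by rw [map_neg, ← d2, neg_neg], by simpa using d3, by simpa using d4 h, hE⟩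
  have p := KM_dv a Q hQ
  have q : M₀.Pr Q := by_contra fun q => k (d ⟨p, q⟩)
  refine k (f Q (Finsupp.mem_support_iff.2 ?_) p)
  exact fun z => Finsupp.mem_support_iff.1 hQ
    (((KM_pr a (P := Bm.toPl a p) p).symm.trans (KM_pr h₀ (P := Bm.toPl a p) q)).trans z)

end Ku

end Vale.Agent.P287D
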