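import Vale.Agent.P287D.Ku.Km
import Vale.Agent.P287D.Ba.Sec
import Vale.Agent.P287D.Va.Cone

/-!
# P287D, block KU: the vanishing theorem and the connectedness lemma for b-divisors
-/

set_option linter.all false

open Set Filter Topology
open Vale.Agent.P297 (Place)
open Vale.Agent.P297Z.Pl
open Vale.Agent.P277Z Vale.Agent.P277Z.FI

noncomputable section

namespace Vale.Agent.P287D.Ku

open Ba hiding Div Mod

variable {n : ℕ} {K : Type} [Field K] [Algebra ℂ K] {M M' : Mdl n 0 K} {x : M.F} {D E B : Div K}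
  {T : Set (Place K)} {P Q R : Pl K} {f g : K} {Γ Λ : BD K}

theorem Pt.off (hM : M.Proj) (h : Pt M x R) (hE : 0 ≤ bar M E) (h0 : bar M E R = 0)
    (Q : Place K) (hQ : M.On x Q) : E Q = 0 :=
  le_antisymm (not_lt.1 fun k => (h.pos hM (fun _ a => nonneg_pr hM hE ⟨x, a⟩) hQ k).ne' h0)
    (nonneg_pr hM hE ⟨x, hQ⟩)

theorem ukv : UKV := by
  intro n K _ _ hK Γ ι _ G h h1 h2 hG cov hh
  obtain e | ⟨⟨P₀⟩⟩ := isEmpty_or_nonempty (Pl K)
  · exact ⟨0, fun _ P => (e.false P).elim⟩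
  obtain ⟨M, U, D, E, hM, u1, u2, -, -, d1, rfl, d2, d3, hE⟩ :=
    comN hK h1 (fun i => (hG i).1) finite_empty
  have e : ∀ i, G i = bar M (E i) := fun i => (hE i).2.1
  choose i hi using fun x : M.F => show ∃ i, ∀ Q, M.On x Q → E i Q = 0 from
    let ⟨R, a⟩ := exists_pt hM P₀ x
    let ⟨i, b⟩ := cov R
    ⟨i, a.off hM (e i ▸ (hG i).2) (e i ▸ b)⟩
  obtain ⟨f, hf⟩ := kvm hM u1 u2 d1 d2 d3 h2 (fun x => h (i x)) fun x =>
    (off_near hM (hi x)).mono fun y hy Q hQ => hh _ _ Q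
      (e _ ▸ zero_of_off hM hy (ct_of_on hQ)) (e _ ▸ zero_of_off hM (hi y) (ct_of_on hQ))
  exact ⟨f, fun j P h0 =>
    let ⟨x, hx⟩ := ct hM P
    (hf x P hx).trans (hh _ _ P (e _ ▸ zero_of_off hM (hi x) hx) h0)⟩

theorem rk_aux {c : K} (h : Aj n Γ P (f - c)) (hc : c ∈ P.ring) : 0 ≤ P.ord f ∨ Aj n Γ P f := by
  by_cases k : dsc n Γ P ≤ -1
  · refine Or.inl (ord_nonneg_of_mem P.toPlace (sub_add_cancel f c ▸ add_mem ?_ hc))
    rcases eq_or_ne (f - c) 0 with e | e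
    · rw [e]; exact zero_mem _
    · exact (ord_nonneg_iff P.toPlace e).1 ((h.pos k).resolve_left e).le
  · exact Or.inr (sub_add_cancel f c ▸ h.add (.of_klt (not_le.1 k) (ord_nonneg_of_mem _ hc)))

/-- **UCORE**: an adjoint function which separates two parts of the non-klt locus -/
def UCORE : Prop := ForK fun n K _ _ => ∀ (Λ' Γ : BD K) (A : Set (Pl K)), Λ' ∈ Car K →
  Nef (-Γ) → Big (-Γ) →
  (∀ P ∈ A, ∀ Q ∉ A, dsc n Γ P ≤ -1 → dsc n Γ Q ≤ -1 → ¬ Meet Λ' P Q) →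
  ∃ f, ∀ P, (P ∈ A ∧ dsc n Γ P ≤ -1 → Aj n Γ P (f - 1)) ∧
    (¬ (P ∈ A ∧ dsc n Γ P ≤ -1) → Aj n Γ P f)

theorem ucore : UCORE := by
  classical
  intro n K _ _ hK Λ Γ A hΛ h1 h2 hn
  obtain ⟨M, U, D, E, hM, u1, u2, -, -, d1, rfl, d2, d3, hE⟩ :=
    comN hK h1 (β := fun _ : Unit => Λ) (fun _ => hΛ) finite_empty
  obtain rfl : Λ = bar M (E ()) := (hE ()).2.1
  let p : M.F → Prop := fun x => ∃ P ∈ A, dsc n (bar M D) P ≤ -1 ∧ M.On x P.toPlace
  have k : ∀ {x Q}, Q ∉ A → dsc n (bar M D) Q ≤ -1 → M.Ct x Q.toPlace → ¬ p x :=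
    fun a b c ⟨P, d, e, g⟩ => hn P d _ a e b (meet_of_ct hM (ct_of_on g) c _)
  obtain ⟨f, hf⟩ := kvm hM u1 u2 d1 d2 d3 h2 (fun x => if p x then 1 else 0)
    fun x => by
      filter_upwards [(eventually_all_finite (KM M - D).support.finite_toSet).2
        fun R _ => (hloc hM).near x R] with y hy Q hQ
      have a : ∀ {R : Pl K}, dsc n (bar M D) R ≤ -1 → M.On y R.toPlace → M.On x R.toPlace :=
        fun {R} b c => hy _ (Finsupp.mem_support_iff.2 fun e => by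
          rw [dsc, Pi.sub_apply, KM_pr hM ⟨y, c⟩, bar_pr hM ⟨y, c⟩, ← Finsupp.sub_apply, e] at b
          linarith) c
      by_cases b : dsc n (bar M D) Q ≤ -1
      · refine Or.inl (sub_eq_zero.2 (if_congr ?_ rfl rfl))
        by_cases c : Q ∈ A
        · exact iff_of_true ⟨Q, c, b, a b hQ⟩ ⟨Q, c, b, hQ⟩
        · exact iff_of_false (k c b (ct_of_on (a b hQ))) (k c b (ct_of_on hQ))
      · exact .of_klt (not_le.1 b) (by split_ifs <;> simp)
  refine ⟨f, fun P => ?_⟩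
  obtain ⟨x, hx⟩ := ct hM P
  have d := hf x P hx
  refine ⟨fun ⟨p1, p2⟩ => ?_, fun c => ?_⟩
  · obtain ⟨Q, a, b⟩ := nk_on hM u2 d2 hx p2
    rwa [if_pos ⟨Q, by_contra fun e => hn _ p1 _ e p2 b (meet_of_ct hM hx (ct_of_on a) _), b, a⟩]
      at d
  · by_cases b : dsc n (bar M D) P ≤ -1
    · rwa [if_neg (k (fun e => c ⟨e, b⟩) b hx), sub_zero] at d
    · exact sub_add_cancel f _ ▸ d.add (.of_klt (not_le.1 b) (by split_ifs <;> simp))

theorem ucon0 : UCON0 := by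
  intro n K _ _ hK Λ Γ A hΛ h1 h2 hr ⟨P₀, p1, p2⟩ ⟨Q₀, q1, q2⟩
  by_contra! hn
  obtain ⟨f, hf⟩ := ucore n K hK Λ Γ A hΛ h1 h2 hn
  have r : ∀ c : K, (c = 0 ∨ c = 1) → f - c ≠ 0 → dv (f - c) = 0 := fun c hc h0 =>
    hr _ h0 fun P => by
      have e : c ∈ P.ring := by rcases hc with rfl | rfl; exacts [zero_mem _, one_mem _]
      by_cases b : P ∈ A ∧ dsc n Γ P ≤ -1
      · exact rk_aux (c := 1 - c) (by rw [sub_sub_sub_cancel_right]; exact (hf P).1 b)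
          (sub_mem (one_mem _) e)
      · exact rk_aux (c := -c) (by rw [sub_neg_eq_add, sub_add_cancel]; exact (hf P).2 b)
          (neg_mem e)
  have z : ∀ (c : K) (P : Pl K), (c = 0 ∨ c = 1) → dsc n Γ P ≤ -1 → Aj n Γ P (f - c) → f = c :=
    fun c P a b d => by_contra fun e => by
      have e' := sub_ne_zero.2 e
      have := congrFun (r c a e') P
      have := (d.pos b).resolve_left e'
      simp only [dv, Pi.zero_apply, Int.cast_eq_zero] at *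
      omega
  exact zero_ne_one ((z 0 _ (.inl rfl) q2 (by simpa using (hf _).2 fun e => q1 e.1)).symm.trans
    (z 1 _ (.inr rfl) p2 ((hf _).1 ⟨p1, p2⟩)))

/-- **HRT**: the pull back of an effective divisor is effective -/
def HRT : Prop := ForS fun n K _ _ => ∀ Λ β : BD K, Smp Λ → Big Λ → Dsc Λ β →
  (∀ P, On n Λ P → 0 ≤ β P) → 0 ≤ β

theorem hrt_of (h : NEG) : HRT := fun n K _ _ hK Λ β a b c d => (h.nn n K hK Λ β a b c d).1

theorem dv_eq_zero (hK : FF K n) (h : 0 ≤ dv f) : dv f = 0 := by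
  obtain ⟨M, hM⟩ := Bm.exists_mdl hK
  by_cases f0 : f = 0
  · simp [f0]
  rw [← bar_div hM] at h ⊢
  rw [(pc hM).div_zero f0 (nonneg_of_bar hM (FI.dv_div f) h), map_zero]

theorem dsc_prn {β : BD K} (h : Smp Λ) (e : β ∈ Prn K) : Dsc Λ β :=
  ⟨1, one_pos, h.add_prn (by simpa using e), by
    simpa [sub_eq_add_neg] using h.add_prn (neg_mem e)⟩

theorem rk1_of (h : HRT) (hK : FF K (n + 1)) (h1 : Smp Λ) (h2 : Big Λ) (h3 : Bdy n Λ Γ) :
    Rk1 (n + 1) Γ := fun f _ k =>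
  dv_eq_zero hK (h n K hK Λ _ h1 h2 (dsc_prn h1 (dv_mem_Prn f)) fun P hP =>
    Int.cast_nonneg_iff.2 ((k P).elim id fun a => a.nonneg (h3 P hP)))

theorem ucon_of (h : HRT) : UCON := fun n K _ _ hK _ Λ' Γ A a b c d e f =>
  ucon0 (n + 1) K hK Λ' Γ A d e f (rk1_of h hK a b c)

end Vale.Agent.P287D.Ku
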