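import Vale.Agent.P287D.Ku.Rc0
import Vale.Agent.P287D.Ku.Uk
import Vale.Agent.P287D.Ad.Main

/-!
# P287D, block KU: connectedness in the fibres
-/

set_option linter.all false

open Set
open Vale.Agent.P297Z.Pl

noncomputable section

namespace Vale.Agent.P287D.Ku

variable {n : ℕ} {K : Type} [Field K] [Algebra ℂ K] {Λ Λ₀ Λ' Γ Θ : BD K} {P a b : Pl K}

/-- the blow up of a centre -/
def CN : Prop := ForK fun _ K _ _ => ∀ (Λ : BD K) (P R₁ : Pl K), Smp Λ → ¬ CLe Λ R₁ P →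
  ∃ (G : BD K) (ε : ℝ), CarQ G ∧ 0 ≤ G ∧ 0 < ε ∧ Smp (Λ - ε • G) ∧ ∀ R, 0 < G R ↔ CLe Λ R P

/-- points of a centre lift to higher models -/
def LF : Prop := ForK fun _ K _ _ => ∀ (Λ A : BD K) (a P : Pl K), Smp Λ → A ∈ Car K →
  CLe Λ a P → ∃ R, CLe Λ R a ∧ CLe A R P

/-- a pair which is not log canonical at `P` is not klt at the points of the centre of `P` -/
theorem nlc (h1 : CN) (h2 : LF) (hK : FF K (n + 1)) (hΛ : Smp Λ) (hΓ : Γ ∈ Car K)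
    (h : CLe Λ a P) (hP : dsc (n + 1) Γ P < -1) : ∃ R, CLe Λ R a ∧ dsc (n + 1) Γ R ≤ -1 := by
  by_cases k : CLe Λ P a
  · exact ⟨P, k, hP.le⟩
  obtain ⟨G, -, g1, g2, -, -, g3⟩ := h1 _ K hK Λ a P hΛ k
  have g0 : G P = 0 := le_antisymm (not_lt.1 (mt (g3 P).1 k)) (g2 P)
  obtain ⟨Q, hQ⟩ := mr hK g1.car g2 g0 fun A hA =>
    (h2 _ K hK Λ A a P hΛ hA h).imp fun R r => ⟨(g3 R).2 r.1, r.2⟩
  obtain ⟨m, hm⟩ := exists_int_gt ((dsc n (adj n P Γ) Q + 1) / -(dsc (n + 1) Γ P + 1))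
  obtain ⟨R, r1, r2, -, -, r3⟩ := P287D.a2 n K hK P Q {G, Γ} Γ m (toFinite _)
    (insert_subset g1.car (singleton_subset_iff.2 hΓ)) hΓ
  refine ⟨R, (g3 R).1 (by rwa [r1.2 G (by simp), g0, zero_mul, add_zero]), ?_⟩
  rw [← r3 Γ (by simp)]
  have := (div_lt_iff₀ (by linarith)).1 (hm.trans_le (Int.cast_le.2 r2))
  linarith

theorem rc_fin (hK : FF K (n + 1)) {A : Set (Pl K)} {w : Finset K} (hw : Nz w) (h1 : Smp Λ)
    (h2 : Big Λ) (h3 : Dsc Λ (mx w)) (h4 : Λ' ∈ Car K) (h5 : Nef (mx w - Θ)) (h6 : Big (mx w - Θ))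
    (h7 : Bdy n Λ Θ)
    (h8 : ∀ P ∈ A, ∀ Q ∉ A, dsc (n + 1) Θ P ≤ -1 → dsc (n + 1) Θ Q ≤ -1 → ¬ Meet Λ' P Q)
    (ha : a ∈ A) (hb : b ∉ A) (a1 : dsc (n + 1) Θ a ≤ -1) (b1 : dsc (n + 1) Θ b ≤ -1)
    (ab : CLe (mx w) a b) : False := by
  obtain ⟨σ, s1, s0, s2⟩ := exists_gen hw (finite_singleton a)
  have r := (sec_of_span s1).rep s0
  have e : ∀ P, dsc (n + 1) (Θ - (dv σ + mx w)) P = dsc (n + 1) Θ P + (dv σ + mx w) P := fun P => by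
    simp only [dsc, Pi.sub_apply]; ring
  have e' : -(Θ - (dv σ + mx w)) - (mx w - Θ) ∈ Prn K := by
    convert dv_mem_Prn σ using 1; abel
  obtain ⟨f, hf⟩ := ucore _ K hK Λ' _ A h4 (h5.congr e') (h6.congr e') fun P p Q q c d =>
    h8 P p Q q (by linarith [e P, show (0 : ℝ) ≤ _ from r.1 P])
      (by linarith [e Q, show (0 : ℝ) ≤ _ from r.1 Q])
  have one : ∀ P, P ∈ A ∧ dsc (n + 1) (Θ - (dv σ + mx w)) P ≤ -1 → f ≠ 0 ∧ P.ord f = 0 :=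
    fun P p => by
      rcases ((hf P).1 p).pos p.2 with c | c
      · simp [sub_eq_zero.1 c]
      · have f0 : f ≠ 0 := fun z => by simp [z] at c
        have c1 : f - 1 ≠ 0 := fun z => by simp [z] at c
        have d := min_ord_le_add P.toPlace c1 one_ne_zero (by simpa using f0)
        have d' := min_ord_le_add P.toPlace f0 (neg_ne_zero.2 c1) (by simp)
        simp only [sub_add_cancel, ord_one, ord_neg, neg_sub, add_sub_cancel] at d d'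
        rw [← neg_sub, ord_neg] at d'
        exact ⟨f0, by omega⟩
  have sa := s2 a rfl
  obtain ⟨f0, fa⟩ := one a ⟨ha, by rw [e, sa, add_zero]; exact a1⟩
  have nn : 0 ≤ dv f + (dv σ + mx w) := Pr.hart res' hK h1 h2
    ((Dsc.dv h1 f).add ((Dsc.dv h1 σ).add h3)) fun P p => by
      by_cases c : P ∈ A ∧ dsc (n + 1) (Θ - (dv σ + mx w)) P ≤ -1
      · simpa [dv_apply, (one P c).2] using r.1 P
      · have d := ((hf P).2 c).resolve_left f0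
        have : ((-1 : ℤ) : ℝ) < (P.ord f + (P.ord σ + P.mz w) : ℤ) := by
          have := h7 P p
          rw [e] at d
          simp only [Pi.add_apply, dv_apply, mx_apply] at d
          push_cast
          linarith
        simp only [Pi.add_apply, dv_apply, mx_apply]
        exact_mod_cast Int.lt_add_one_iff.1 (by simpa using Int.cast_lt.1 this |> neg_lt_iff_pos_add.1)
  have sb := ab.zero r sa
  have fb := (((hf b).2 fun c => hb c.1).pos (by rw [e, sb, add_zero]; exact b1)).resolve_left f0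
  have := ab _ ⟨nn, by simpa [← add_assoc] using add_mem (dv_mem_Prn f) (dv_mem_Prn σ)⟩ (by
    rw [Pi.add_apply, sb, add_zero]; exact Int.cast_pos.2 fb)
  rw [Pi.add_apply, sa, dv_apply, fa] at this
  simp at this

theorem urc_of (h1 : CN) (h2 : LF) : URC := by
  intro n K _ _ hK Λ Λ₀ Λ' Γ Γ₀ c R₀ A s1 b1 s0 s' d0 d' B1 B0 k0 n1 g1 n0 g0 cl
    ⟨a, a1, a2, a3⟩ ⟨b, b2, b3, b4⟩
  by_contra! hn
  obtain ⟨s, s2, am⟩ := s0.exists_ampOn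
  have nz : Nz s := ⟨1, s2, one_ne_zero⟩
  obtain ⟨c₀, -, hc⟩ := (am.dsc'.smul (-c)).exists_add
  obtain ⟨k, hk⟩ := exists_nat_ge c₀
  have up : ∀ Γ : BD K, (k : ℝ) • mx s - Γ = c • Λ₀ - Γ + (-c • Λ₀ + (k : ℝ) • mx s) := fun Γ => by
    module
  have N1 : Nef ((k : ℝ) • mx s - Γ) := up Γ ▸ n1.add (hc k hk).nef
  have G1 : Big ((k : ℝ) • mx s - Γ) := up Γ ▸ g1.add_smp (hc k hk)
  have fin : ∀ (m : ℕ) (Θ : BD K) (a b : Pl K), Nef ((m : ℝ) • mx s - Θ) →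
      Big ((m : ℝ) • mx s - Θ) → Bdy n Λ Θ →
      (∀ P, dsc (n + 1) Θ P ≤ -1 → CLe Λ₀ P R₀ ∧ Nk (n + 1) Λ' Γ P) → a ∈ A → b ∉ A →
      dsc (n + 1) Θ a ≤ -1 → dsc (n + 1) Θ b ≤ -1 → False := fun m Θ a b x1 x2 x3 x4 x5 x6 x7 x8 => by
    obtain ⟨w, hw, e⟩ := exists_mx_nsmul s m
    have d : Dsc Λ₀ (mx w) := e ▸ am.1.smul _
    exact rc_fin hK hw s1 b1 (d0.trans d) s'.car (e ▸ x1) (e ▸ x2) x3
      (fun P p Q q u v => hn P p Q q (x4 P u).1 (x4 P u).2 (x4 Q v).1 (x4 Q v).2) x5 x6 x7 x8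
      (((x4 a x7).1.trans (cl b (x4 b x8).1)).of_dsc d)
  by_cases top : ∀ R, CLe Λ₀ R R₀
  · obtain ⟨P, p1, p2⟩ := id a3
    obtain ⟨Q, q1, q2⟩ := id b4
    exact fin k Γ P Q N1 G1 B1 (fun P p => ⟨top P, P, p, .refl _ _⟩)
      (by_contra fun e => hn a a1 P e a2 a3 (top P) ⟨P, p1, .refl _ _⟩ p2.meet)
      (fun e => hn Q e b b2 (top Q) ⟨Q, q1, .refl _ _⟩ b3 b4 q2.meet.symm) p1 q1
  obtain ⟨R₁, r1⟩ := not_forall.1 top
  obtain ⟨Φ, ε, f1, f2, f3, f4, f5⟩ := h1 _ K hK _ R₀ R₁ (smp_mx s) (mt am.cle_iff.2 r1)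
  have lz := CarZ.nsmul (mx_mem_CarZ s) k
  obtain ⟨Γ₁, x1, x2, x3, x4, x5, x6⟩ := pert hK lz N1 G1 s'.car
  obtain ⟨Γ₂, y1, y2, -, y4, y5, -⟩ := pert hK lz (up Γ₀ ▸ n0.add (hc k hk).nef)
    (up Γ₀ ▸ g0.add_smp (hc k hk)) s'.car
  have c1 : Γ₁ ∈ Car K := by simpa using sub_mem (CarZ.car lz) x2.car
  have key : ∀ a, CLe Λ₀ a R₀ → Nk (n + 1) Λ' Γ a → ∃ R, CLe Λ' R a ∧ CLe Λ₀ R R₀ ∧
      dsc (n + 1) Γ₁ R ≤ -1 := fun a u ⟨P, p1, p2⟩ =>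
    let ⟨Q, q1, q2⟩ := x6 P p1
    let ⟨R, v1, v2⟩ := nlc h1 h2 hK s' c1 (p2.trans q1) q2
    ⟨R, v1, (v1.of_dsc d').trans u, v2⟩
  obtain ⟨P, p1, p2, p3⟩ := key a a2 a3
  obtain ⟨Q, q1, q2, q3⟩ := key b b3 b4
  have p4 := (f5 P).2 (am.cle_iff.1 p2)
  have q4 := (f5 Q).2 (am.cle_iff.1 q2)
  obtain ⟨j, hj⟩ := exists_nat_ge (max ((dsc (n + 1) Γ₂ P + 1) / Φ P) ((dsc (n + 1) Γ₂ Q + 1) / Φ Q))
  obtain ⟨m, hm⟩ := exists_nat_ge (j / ε)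
  have t : Smp ((m : ℝ) • mx s - (j : ℝ) • Φ) := by
    have := (f4.smul (div_nonneg j.cast_nonneg f3.le)).add ((smp_mx s).smul (sub_nonneg.2 hm))
    convert this using 1
    match_scalars <;> field_simp <;> ring
  have u := smp_sup (x2.add ((smp_mx s).smul m.cast_nonneg)) (y2.add t) (fun R =>
    let ⟨q, e⟩ := x4 R
    ⟨q + m * R.mz s, by rw [Pi.add_apply, e]; simp [mx_apply]⟩) fun R =>
    let ⟨q, e⟩ := y4 R
    let ⟨q', e'⟩ := f1.rat R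
    ⟨q + (m * R.mz s - j * q'), by rw [Pi.add_apply, e]; simp [mx_apply, e']⟩
  set Θ := Γ₁ ⊓ (Γ₂ + (j : ℝ) • Φ)
  have e : ((k + m : ℕ) : ℝ) • mx s - Θ = ((k : ℝ) • mx s - Γ₁ + (m : ℝ) • mx s) ⊔
      ((k : ℝ) • mx s - Γ₂ + ((m : ℝ) • mx s - (j : ℝ) • Φ)) := by
    rw [sub_inf]
    push_cast
    congr 1 <;> module
  have e' : ∀ R r, dsc (n + 1) Θ R ≤ r ↔ dsc (n + 1) Γ₁ R ≤ r ∧ dsc (n + 1) Γ₂ R - j * Φ R ≤ r :=
    fun R r => by simp [Θ, dsc, sub_inf, sub_sub]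
  have gd : ∀ R, dsc (n + 1) Θ R ≤ -1 → CLe Λ₀ R R₀ ∧ Nk (n + 1) Λ' Γ R := fun R v => by
    obtain ⟨v1, v2⟩ := (e' R _).1 v
    refine ⟨am.cle_iff.2 ((f5 R).1 ((f2 R).lt_of_ne fun z => ?_)), x5 R v1⟩
    rw [← z, Pi.zero_apply, mul_zero, sub_zero] at v2
    obtain ⟨S, v3, -⟩ := y5 R v2
    exact (k0 S).not_ge v3
  have p5 := (e' P _).2 ⟨p3, by linarith [(div_le_iff₀ p4).1 (le_of_max_le_left hj)]⟩
  have q5 := (e' Q _).2 ⟨q3, by linarith [(div_le_iff₀ q4).1 (le_of_max_le_right hj)]⟩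
  refine fin (k + m) Θ P Q (e ▸ u.nef) (e ▸ (x3.add_smp ((smp_mx s).smul m.cast_nonneg)).mono
    le_sup_left) (fun R v => (e' R _).2 ⟨(sub_le_sub_left (x1 R) _).trans (B1 R v), ?_⟩) gd
    (by_contra fun z => hn a a1 P z a2 a3 p2 (gd P p5).2 p1.meet.symm)
    (fun z => hn Q z b b2 q2 (gd Q q5).2 b3 b4 q1.meet) p5 q5
  exact (sub_le_self _ (mul_nonneg j.cast_nonneg (f2 R))).trans
    ((sub_le_sub_left (y1 R) _).trans (B0 R v))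

end Vale.Agent.P287D.Ku
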