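import Vale.Agent.P287D.Ku.Km
import Vale.Agent.P287D.Pr.Lr
import Vale.Agent.P287D.Rl.Rel

/-!
# P287D, block KU: perturbation of pairs, restriction of effective divisors
-/

set_option linter.all false

open Set Filter Topology
open Vale.Agent.P297 (Place)
open Vale.Agent.P297Z.Pl
open Vale.Agent.P277Z Vale.Agent.P277Z.FI

noncomputable section

namespace Vale.Agent.P287D.Ku

open Ba hiding Div Mod

variable {n : ℕ} {K : Type} [Field K] [Algebra ℂ K] {Λ L Γ G β γ : BD K} {P : Pl K}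

theorem bar_rat {M : Mdl n 0 K} (hM : M.Proj) {D : Div K} (h : ∀ Q, ∃ q : ℚ, D Q = q) (R : Pl K) :
    ∃ q : ℚ, bar M D R = q := by
  obtain ⟨x, hx⟩ := ct hM R
  choose q hq using h
  exact ⟨∑ Q ∈ D.support, q Q * R.ord (M.eqn x Q), by
    simp [bar_ct hM hx, Mdl.ordAt, Finsupp.sum, hq]⟩

/-- the maximum of two rational semiample b-divisors -/
theorem smp_sup (h : Smp β) (h' : Smp γ) (q : ∀ P, ∃ q : ℚ, β P = q) (q' : ∀ P, ∃ q : ℚ, γ P = q) :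
    Smp (β ⊔ γ) := by
  classical
  obtain ⟨a, u, a0, hu, e⟩ := Rl.smp_rat h q
  obtain ⟨b, v, b0, hv, e'⟩ := Rl.smp_rat h' q'
  have p : (0 : ℝ) < a * b := by positivity
  refine .of_smul p ?_
  rw [show ((a : ℝ) * b) • (β ⊔ γ) = (b : ℝ) • (a : ℝ) • β ⊔ (a : ℝ) • (b : ℝ) • γ from
    funext fun P => by
      simp only [Pi.smul_apply, Pi.sup_apply, smul_eq_mul, mul_max_of_nonneg _ _ p.le]
      congr 1 <;> ring, e, e', ← mx_pow hu, ← mx_pow hv, ← mx_union (hu.pow _) (hv.pow _)]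
  exact smp_mx _

/-- **PERT**: a rational perturbation which is not log canonical along the non-klt locus -/
theorem pert (hK : FF K (n + 1)) (hL : L ∈ CarZ K) (h1 : Nef (L - Γ)) (h2 : Big (L - Γ))
    (hΛ : Λ ∈ Car K) : ∃ Γ₁, Γ ≤ Γ₁ ∧ Smp (L - Γ₁) ∧ Big (L - Γ₁) ∧
      (∀ R, ∃ q : ℚ, (L - Γ₁) R = q) ∧ (∀ R, dsc (n + 1) Γ₁ R ≤ -1 → Nk (n + 1) Λ Γ R) ∧
      ∀ P, dsc (n + 1) Γ P ≤ -1 → ∃ Q, CLe Λ P Q ∧ dsc (n + 1) Γ₁ Q < -1 := by
  classical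
  obtain ⟨M₀, h₀⟩ := Bm.exists_mdl hK
  have cL := CarZ.car hL
  obtain ⟨M, m, U, D, E, hM, u1, u2, u3, -, u5, u6, d1, d2, d3, -, e1, e2, e3, e4⟩ :=
    Nb.nb h₀ h1 h2 (toFinite {L, Λ}) (by simp [cL, hΛ]) finite_empty
      (KM M₀).support.finite_toSet
  obtain ⟨DL, l1, rfl, l3, l4, -⟩ := u6 L (by simp)
  obtain ⟨D', -, rfl, -⟩ := u6 Λ (by simp)
  obtain rfl : Γ = bar M (DL - D) := by rw [map_sub, ← d2, sub_sub_cancel]
  obtain ⟨H, hH⟩ := (pc hM).pol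
  have f1 := u1.preimage (pl_inj (K := K)).injOn
  have l := Pr.ls_of hM hH u2 fun P hP => f1.mem_toFinset.1 hP
  have k1 : ((KM M).support : Set (Place K)) ⊆ U := fun Q hQ => by
    have p := KM_dv hM _ hQ
    by_cases k : M₀.Pr Q
    · exact u5 _ (Finsupp.mem_support_iff.2 fun e => Finsupp.mem_support_iff.1 hQ
        ((KM_pr hM (P := Bm.toPl hM p) p).symm.trans ((KM_pr h₀ (P := Bm.toPl hM p) k).trans e))) p
    · exact u3 ⟨p, k⟩
  have sup : ∀ Z : Div K, (∀ Q ∉ U, Z Q = 0) →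
      Sup n (bar M H) f1.toFinset (bar M (KM M) - bar M Z) := fun Z hZ => by
    rw [← map_sub]
    refine Pr.sup_of hM hH fun P hP => f1.mem_toFinset.2 (by_contra fun e => hP ?_)
    rw [Finsupp.sub_apply, hZ _ e, Finsupp.notMem_support_iff.1 fun a => e (k1 a), sub_zero]
  have ds : ∀ (Z : Div K), ∀ P ∈ f1.toFinset, dsc (n + 1) (bar M Z) P =
      KM M P.toPlace - Z P.toPlace := fun Z P hP => by
    have p := u2.1 _ (f1.mem_toFinset.1 hP)
    rw [dsc, Pi.sub_apply, KM_pr hM p, bar_pr hM p]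
  have z : ∀ Z : Div K, (Z.support : Set (Place K)) ⊆ U → ∀ Q ∉ U, Z Q = 0 := fun Z a Q b =>
    Finsupp.notMem_support_iff.1 fun c => b (a c)
  obtain ⟨ε, ⟨ε0, ε1⟩, ε2⟩ : ∃ ε : ℝ, ε ∈ Ioo (0 : ℝ) 1 ∧ ∀ Q ∈ U, -1 < KM M Q - (DL - D) Q →
      -1 < KM M Q - (DL - D + ε • E) Q := by
    refine (Eventually.and (Ioo_mem_nhdsGT one_pos) (eventually_nhdsWithin_of_eventually_nhds
      ((eventually_all_finite u1).2 fun Q _ => ?_))).exists
    by_cases a : -1 < KM M Q - (DL - D) Q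
    · have c : ContinuousAt (fun ε : ℝ => KM M Q - ((DL - D) Q + ε * E Q)) 0 := by fun_prop
      exact (c.eventually (lt_mem_nhds (by simpa using a))).mono fun ε b _ => b
    · exact .of_forall fun _ b => (a b).elim
  obtain ⟨η, η0, η1⟩ := F5.amp_small (hpos hM) (e4 ε ε0 ε1.le) u1
  set Z := DL - D + ε • E
  have hq : ∀ Q, ∃ q : ℚ, Z Q < q ∧ q < Z Q + η ∧ (-1 < KM M Q - Z Q → -1 < KM M Q - q) :=
    fun Q => by
      by_cases a : -1 < KM M Q - Z Q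
      · obtain ⟨q, b, c⟩ := exists_rat_btwn (lt_min (lt_add_of_pos_right (Z Q) η0)
          (show Z Q < KM M Q + 1 by linarith))
        exact ⟨q, b, (lt_min_iff.1 c).1, fun _ => by linarith [(lt_min_iff.1 c).2]⟩
      · obtain ⟨q, b, c⟩ := exists_rat_btwn (lt_add_of_pos_right (Z Q) η0)
        exact ⟨q, b, c, fun d => (a d).elim⟩
  choose q q1 q2 q3 using hq
  set D₁ : Div K := Finsupp.indicator u1.toFinset fun Q _ => (q Q : ℝ)
  have v1 : ∀ Q ∈ U, D₁ Q = q Q := fun Q hQ => Finsupp.indicator_of_mem (u1.mem_toFinset.2 hQ) _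
  have v0 : ∀ Q ∉ U, D₁ Q = 0 := fun Q hQ =>
    Finsupp.indicator_of_notMem (mt u1.mem_toFinset.1 hQ) _
  have z1 : ∀ Q ∉ U, (DL - D) Q = 0 := fun Q a => by simp [z _ l3 Q a, z _ d3 Q a]
  have z2 : ∀ Q ∉ U, Z Q = 0 := fun Q a => by simp [Z, z _ l3 Q a, z _ d3 Q a, z _ e3 Q a]
  have le : ∀ Q, (DL - D) Q ≤ Z Q := fun Q => le_add_of_nonneg_right (mul_nonneg ε0.le (e2 Q))
  have am : M.Amp (DL - D₁) := by
    have := η1 (Z - D₁) (fun Q hQ => by_contra fun a => Finsupp.mem_support_iff.1 hQ (by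
      rw [Finsupp.sub_apply, z2 Q a, v0 Q a, sub_zero])) fun Q => by
        by_cases a : Q ∈ U
        · rw [Finsupp.sub_apply, v1 Q a]
          exact abs_le.2 ⟨by linarith [q2 Q], by linarith [q1 Q]⟩
        · simpa [z2 Q a, v0 Q a] using η0.le
    convert this using 1
    simp only [Z]
    abel
  have dv : M.Dv (DL - D₁) := dv_sub l1 fun Q hQ => u2.1 Q (by_contra fun a =>
    Finsupp.mem_support_iff.1 hQ (v0 Q a))
  have cl := fun P (a : P ∈ f1.toFinset) Q b => l.cle (P := P) (Q := Q) (l.on P a) b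
    (Pr.dsc_bar hM hH.amp hH.dv D')
  refine ⟨bar M D₁, bar_mono hM fun Q => ?_, map_sub (bar M) _ _ ▸ Nb.smp_amp hM dv am,
    map_sub (bar M) _ _ ▸ big_of_big hM (.of_amp dv am), map_sub (bar M) _ _ ▸ bar_rat hM fun Q => ?_,
    fun R hR => ?_, fun P hP => ?_⟩
  · by_cases a : Q ∈ U
    · exact v1 Q a ▸ (le Q).trans (q1 Q).le
    · rw [z1 Q a, v0 Q a]
  · obtain ⟨k, hk⟩ := l4 hL Q
    by_cases a : Q ∈ U
    · exact ⟨k - q Q, by simp [hk, v1 Q a]⟩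
    · exact ⟨k, by simp [hk, v0 Q a]⟩
  · by_contra a
    have := l.gt (Q := R) (sup D₁ v0) le_rfl one_pos fun P b c => by
      have d := f1.mem_toFinset.1 b
      have := q3 _ (ε2 _ d (ds _ P b ▸ not_le.1 fun e => a ⟨P, e, cl P b R c⟩))
      rw [ds _ P b, v1 _ d]
      linarith
    linarith
  · by_contra! a
    have := l.gt (Q := P) (sup _ z1) le_rfl one_pos fun Q b c => by
      have d := a Q (cl Q b P c)
      rw [ds _ Q b] at d ⊢
      rw [v1 _ (f1.mem_toFinset.1 b)] at d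
      linarith [q1 Q.toPlace, le Q.toPlace]
    linarith

/-- **MR**: an effective divisor which meets `P` on a high model restricts to a non-zero divisor -/
theorem mr (hK : FF K (n + 1)) (hG : G ∈ Car K) (h0 : 0 ≤ G) (hP : G P = 0)
    (h : ∀ A ∈ Car K, ∃ R, 0 < G R ∧ CLe A R P) : ∃ Q, 0 < res P G Q := by
  classical
  obtain ⟨M₀, h₀⟩ := Bm.exists_mdl hK
  obtain ⟨M, -, U, hM, -, u2, -, u4, -, u6⟩ := com h₀ (finite_singleton G) (by simpa using hG)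
    (finite_singleton P) finite_empty
  obtain ⟨E, e1, rfl, -⟩ := u6 G rfl
  have p := u2.1 _ (u4 P rfl)
  obtain ⟨S, s, hS, e, hR⟩ := Bm.sub hM P (snc_mono u2 (singleton_subset_iff.2 (u4 P rfl)))
  obtain ⟨H, hH⟩ := (pc hM).pol
  obtain ⟨R, r1, r2⟩ := h _ (bar_car hM H)
  obtain ⟨x, hx⟩ := ct hM R
  obtain ⟨Q₁, a1, a2⟩ := on_of_pos hM hx (r2.pos (Pr.dsc_bar hM hH.amp hH.dv
    (Finsupp.single P.toPlace 1)) (bar_nonneg hM (Finsupp.single_nonneg.2 zero_le_one))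
      (by simp [bar_pr hM p]))
  obtain rfl : Q₁ = P.toPlace := (Finsupp.single_apply_ne_zero.1 a2.ne').1
  obtain ⟨Q₂, b1, b2⟩ := on_of_pos hM hx r1
  obtain ⟨y, hy, c⟩ := (s.on x).1 a1
  obtain rfl : x = ip s ⟨y, hy⟩ := Subtype.ext c.symm
  rw [bar_pr hM p] at hP
  have g := eqn_gn b1
  have o : P.ord (M.eqn (ip s ⟨y, hy⟩) Q₂) = 0 :=
    (hloc hM).other _ _ _ _ g a1 fun e => b2.ne' (e ▸ hP)
  obtain ⟨Q, c1, c2⟩ := (hloc hS).van ⟨y, hy⟩ _ (res_O g.mem) (fun e => by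
    have := (s.res_zero _ (ct_of_on a1 _ g.mem)).1 e
    rw [o] at this
    exact this.elim (eqn_ne _ _) (lt_irrefl _)) ((s.val ⟨y, hy⟩ _ g.mem).self_of_nhds.trans g.van)
  refine ⟨Bm.toPl hS ⟨_, c1⟩, ?_⟩
  rw [res_bar0 hM hS e hR hP, bar_pr hS ⟨_, c1⟩]
  refine (hR.rs ⟨y, hy⟩ Q E hP c1).symm ▸ Finset.sum_pos' (fun T hT => mul_nonneg
    (nonneg_pr hM h0 (e1 T hT)) (Int.cast_nonneg (ord_nonneg_of_mem Q (ct_of_on c1 _
      (res_O (eqn_mem _ T)))))) ⟨Q₂, Finsupp.mem_support_iff.2 b2.ne', mul_pos b2 (Int.cast_pos.2 c2)⟩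

end Vale.Agent.P287D.Ku
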